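import Mathlib

/-!
Definitions for P256: hyperbolicity, the closed cone, semidefinite lifts, and elementary matrix facts.
-/

namespace Vale.Agent.P256

open Matrix

/-- A polynomial is hyperbolic with respect to `e`: positive at `e` and every complex root of
`t ↦ p(t e - x)` is real, for every real `x`. -/
def Hyperbolic {m : ℕ} (p : MvPolynomial (Fin m) ℝ) (e : Fin m → ℝ) : Prop :=
  0 < MvPolynomial.eval e p ∧
    ∀ (x : Fin m → ℝ) (z : ℂ),
      MvPolynomial.aeval (fun i => z * (e i : ℂ) - (x i : ℂ)) p = 0 → z.im = 0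

/-- The closed hyperbolicity cone: the points `x` such that all roots of `t ↦ p(t e - x)` are nonnegative. -/
def hypCone {m : ℕ} (p : MvPolynomial (Fin m) ℝ) (e : Fin m → ℝ) : Set (Fin m → ℝ) :=
  {x | ∀ t : ℝ, MvPolynomial.eval (t • e - x) p = 0 → 0 ≤ t}

/-- A semidefinite lift of size `r`: `S` is the projection of a set cut out by one linear matrix
inequality of size `r` with any number of auxiliary variables. -/
def HasLift {m : ℕ} (r : ℕ) (S : Set (Fin m → ℝ)) : Prop :=
  ∃ (a : ℕ) (A₀ : Matrix (Fin r) (Fin r) ℝ) (A : Fin m → Matrix (Fin r) (Fin r) ℝ)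
    (B : Fin a → Matrix (Fin r) (Fin r) ℝ), ∀ x, x ∈ S ↔
      ∃ u : Fin a → ℝ, (A₀ + ∑ i, x i • A i + ∑ j, u j • B j).PosSemidef

end Vale.Agent.P256
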