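import Vale.Agent.P256.Base

/-!
A greedy code: exponentially many unit sign vectors with pairwise inner products at most one half.
-/

namespace Vale.Agent.P256

/-- Hamming distance of two Boolean words. -/
def hdist {n : ℕ} (a b : Fin n → Bool) : ℕ := (Finset.univ.filter fun k => a k ≠ b k).card

lemma hdist_le {n : ℕ} (a b : Fin n → Bool) : hdist a b ≤ n :=
  (Finset.card_filter_le _ _).trans_eq (by simp)

lemma sum_pow_hdist {n : ℕ} (a : Fin n → Bool) :
    ∑ b : Fin n → Bool, (3 ^ (n - hdist a b) + 3 ^ hdist a b) = 2 * 4 ^ n := by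
  have h1 : ∀ b : Fin n → Bool, 3 ^ hdist a b = ∏ k, (if a k ≠ b k then 3 else 1 : ℕ) := by
    intro b
    rw [Finset.prod_ite, Finset.prod_const, Finset.prod_const, one_pow, mul_one]
    rfl
  have h2 : ∀ b : Fin n → Bool, 3 ^ (n - hdist a b) = ∏ k, (if a k ≠ b k then 1 else 3 : ℕ) := by
    intro b
    have hc := Finset.card_filter_add_card_filter_not (s := (Finset.univ : Finset (Fin n)))
      (fun k => a k ≠ b k)
    simp only [Finset.card_univ, Fintype.card_fin] at hc
    rw [Finset.prod_ite, Finset.prod_const, Finset.prod_const, one_pow, one_mul]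
    congr 1
    unfold hdist
    omega
  simp only [h1, h2, Finset.sum_add_distrib]
  rw [← Fintype.prod_sum (fun k c => (if a k ≠ c then 1 else 3 : ℕ)),
    ← Fintype.prod_sum (fun k c => (if a k ≠ c then 3 else 1 : ℕ))]
  have e1 : ∀ k, ∑ c : Bool, (if a k ≠ c then 1 else 3 : ℕ) = 4 := fun k => by
    cases a k <;> simp
  have e2 : ∀ k, ∑ c : Bool, (if a k ≠ c then 3 else 1 : ℕ) = 4 := fun k => by
    cases a k <;> simp
  simp only [e1, e2, Finset.prod_const, Finset.card_univ, Fintype.card_fin]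
  ring

lemma code_budget (n : ℕ) (hn : 16 ≤ n) : 2 ^ (n / 8) * (2 * 4 ^ n) < 2 ^ n * 3 ^ (n - n / 4) := by
  have key : ∀ m, 16 ≤ m → 512 ^ m * 256 < 729 ^ m := by
    intro m hm
    induction m, hm using Nat.le_induction with
    | base => norm_num
    | succ k _ ih => rw [pow_succ, pow_succ]; nlinarith [pow_pos (show 0 < 512 by norm_num) k]
  have h1 : 2 ^ (n / 8 + 1 + n) < 3 ^ (n - n / 4) := by
    apply lt_of_pow_lt_pow_left' 8
    rw [← pow_mul, ← pow_mul]
    calc 2 ^ ((n / 8 + 1 + n) * 8) ≤ 2 ^ (9 * n + 8) :=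
          Nat.pow_le_pow_right (by norm_num) (by omega)
      _ = 512 ^ n * 256 := by rw [pow_add, pow_mul]; norm_num
      _ < 729 ^ n := key n hn
      _ = 3 ^ (6 * n) := by rw [pow_mul]; norm_num
      _ ≤ 3 ^ ((n - n / 4) * 8) := Nat.pow_le_pow_right (by norm_num) (by omega)
  calc 2 ^ (n / 8) * (2 * 4 ^ n) = 2 ^ n * 2 ^ (n / 8 + 1 + n) := by
        rw [show (4 : ℕ) = 2 * 2 by norm_num, mul_pow, pow_add, pow_add]; ring
    _ < 2 ^ n * 3 ^ (n - n / 4) := Nat.mul_lt_mul_of_pos_left h1 (by positivity)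

lemma exists_words (n : ℕ) (hn : 16 ≤ n) :
    ∃ S : Finset (Fin n → Bool), S.card = 2 ^ (n / 8) ∧
      ∀ a ∈ S, ∀ b ∈ S, a ≠ b → n ≤ 4 * hdist a b ∧ 4 * hdist a b ≤ 3 * n := by
  suffices H : ∀ N, N ≤ 2 ^ (n / 8) → ∃ S : Finset (Fin n → Bool), S.card = N ∧
      ∀ a ∈ S, ∀ b ∈ S, a ≠ b → n ≤ 4 * hdist a b ∧ 4 * hdist a b ≤ 3 * n from H _ le_rfl
  intro N
  induction N with
  | zero => exact fun _ => ⟨∅, by simp⟩
  | succ N ih =>
    intro hN
    obtain ⟨S, hS, hgood⟩ := ih (Nat.le_of_succ_le hN)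
    have hex : ∃ b, ∀ a ∈ S, n ≤ 4 * hdist a b ∧ 4 * hdist a b ≤ 3 * n := by
      by_contra hc
      push Not at hc
      have hw : ∀ b : Fin n → Bool,
          3 ^ (n - n / 4) ≤ ∑ a ∈ S, (3 ^ (n - hdist a b) + 3 ^ hdist a b) := by
        intro b
        obtain ⟨a, ha, hbad⟩ := hc b
        refine le_trans ?_ (Finset.single_le_sum
          (f := fun a => 3 ^ (n - hdist a b) + 3 ^ hdist a b) (fun _ _ => Nat.zero_le _) ha)
        have hd := hdist_le a b
        by_cases h : n ≤ 4 * hdist a b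
        · have := hbad h
          exact le_add_left (Nat.pow_le_pow_right (by norm_num) (by omega))
        · exact le_add_right (Nat.pow_le_pow_right (by norm_num) (by omega))
      have h1 := Finset.sum_le_sum (s := (Finset.univ : Finset (Fin n → Bool))) fun b _ => hw b
      rw [Finset.sum_comm] at h1
      simp only [sum_pow_hdist, Finset.sum_const, Finset.card_univ, Fintype.card_fun,
        Fintype.card_bool, Fintype.card_fin, smul_eq_mul, hS] at h1
      have h2 : N * (2 * 4 ^ n) ≤ 2 ^ (n / 8) * (2 * 4 ^ n) :=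
        Nat.mul_le_mul_right _ (Nat.le_of_succ_le hN)
      have := code_budget n hn
      omega
    obtain ⟨b, hb⟩ := hex
    have hbS : b ∉ S := fun h => by
      have h0 := (hb b h).1
      simp [hdist] at h0
      omega
    refine ⟨insert b S, by rw [Finset.card_insert_of_notMem hbS, hS], ?_⟩
    have hsymm : ∀ x y : Fin n → Bool, hdist x y = hdist y x := fun x y => by
      simp [hdist, ne_comm]
    intro x hx y hy hne
    rw [Finset.mem_insert] at hx hy
    rcases hx with rfl | hx <;> rcases hy with rfl | hy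
    · exact absurd rfl hne
    · rw [hsymm]; exact hb y hy
    · exact hb x hx
    · exact hgood x hx y hy hne

lemma exists_code (n : ℕ) (hn : 16 ≤ n) :
    ∃ u : Fin (2 ^ (n / 8)) → (Fin n → ℝ),
      (∀ i, ∑ k, u i k ^ 2 = 1) ∧ ∀ i j, i ≠ j → |∑ k, u i k * u j k| ≤ 1 / 2 := by
  obtain ⟨S, hS, hgood⟩ := exists_words n hn
  let w : Fin (2 ^ (n / 8)) → (Fin n → Bool) :=
    fun i => (S.equivFinOfCardEq hS).symm i
  have hn0 : (0 : ℝ) < n := by exact_mod_cast (by omega : 0 < n)
  let sg : Bool → ℝ := fun c => if c then 1 else -1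
  refine ⟨fun i k => sg (w i k) / Real.sqrt n, fun i => ?_, fun i j hij => ?_⟩
  · have e : ∀ k, (sg (w i k) / Real.sqrt n) ^ 2 = 1 / n := fun k => by
      rw [div_pow, Real.sq_sqrt hn0.le]; cases w i k <;> simp [sg]
    simp only [e, Finset.sum_const, Finset.card_univ, Fintype.card_fin, nsmul_eq_mul]
    field_simp
  · have hne : w i ≠ w j := fun h => hij ((S.equivFinOfCardEq hS).symm.injective (Subtype.ext h))
    obtain ⟨h1, h2⟩ := hgood _ (Subtype.prop _) _ (Subtype.prop _) hne
    have e : ∀ k, sg (w i k) / Real.sqrt n * (sg (w j k) / Real.sqrt n) =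
        (1 - 2 * (if w i k ≠ w j k then 1 else 0 : ℝ)) / n := fun k => by
      rw [div_mul_div_comm, Real.mul_self_sqrt hn0.le]
      cases w i k <;> cases w j k <;> norm_num [sg]
    simp only [e]
    rw [← Finset.sum_div, Finset.sum_sub_distrib, ← Finset.mul_sum, Finset.sum_boole]
    simp only [Finset.sum_const, Finset.card_univ, Fintype.card_fin, nsmul_eq_mul, mul_one]
    rw [abs_div, abs_of_pos hn0, div_le_iff₀ hn0, abs_le]
    change _ ≤ (n : ℝ) - 2 * (hdist (w i) (w j) : ℝ) ∧ (n : ℝ) - 2 * (hdist (w i) (w j) : ℝ) ≤ _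
    have a1 : (n : ℝ) ≤ 4 * hdist (w i) (w j) := by exact_mod_cast h1
    have a2 : 4 * (hdist (w i) (w j) : ℝ) ≤ 3 * n := by exact_mod_cast h2
    constructor <;> linarith

end Vale.Agent.P256
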