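import Vale.Agent.P256.Normal

/-!
Counting semidefinite lifts: a family of cones told apart with margin by finitely many points has
no more members than a grid of polynomially many cells.
-/

namespace Vale.Agent.P256

open Matrix

lemma abs_apply_le {r : ℕ} (w : MatE r) (p : Fin r × Fin r) : |w.ofLp p| ≤ ‖w‖ := by
  have h := Finset.single_le_sum (f := fun q => (w.ofLp q) ^ 2) (fun q _ => sq_nonneg _)
    (Finset.mem_univ p)
  rw [← norm_sq_eq] at h
  exact abs_le_of_sq_le_sq h (norm_nonneg _)

lemma norm_le_of_apply {r : ℕ} (w : MatE r) {η : ℝ} (h0 : 0 ≤ η)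
    (h : ∀ p, |w.ofLp p| ≤ η) : ‖w‖ ≤ r * η := by
  refine (sq_le_sq₀ (norm_nonneg _) (by positivity)).mp ?_
  rw [norm_sq_eq]
  refine (Finset.sum_le_sum (g := fun _ => η ^ 2) fun p _ => ?_).trans_eq (by simp; ring)
  exact sq_le_sq' (abs_le.mp (h p)).1 (abs_le.mp (h p)).2

lemma lin_sub {m r : ℕ} (l l' : Fin m → MatE r) (c : Fin m → ℝ) :
    lin l' c - lin l c = ∑ k, c k • (l' k - l k) := by
  simp [lin, smul_sub, Finset.sum_sub_distrib]

lemma norm_lin_le {m r : ℕ} (l : Fin m → MatE r) (c : Fin m → ℝ) {R L : ℝ} (hR : 0 ≤ R)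
    (hc : ∀ k, |c k| ≤ R) (hl : ∀ k, ‖l k‖ ≤ L) : ‖lin l c‖ ≤ m * (R * L) := by
  refine (norm_sum_le _ _).trans ?_
  refine (Finset.sum_le_sum (g := fun _ => R * L) fun k _ => ?_).trans_eq (by simp)
  rw [norm_smul, Real.norm_eq_abs]
  exact mul_le_mul (hc k) (hl k) (norm_nonneg _) hR

/-- If every member of a separated family has a lift of size `r`, the family is small. -/
theorem lift_count {m r N : ℕ} (K : (Fin N → Bool) → Set (Fin m → ℝ))
    (hK : ∀ σ, HasLift r (K σ)) (e : Fin m → ℝ) {δ R θ : ℝ} (hδ : 0 < δ) (hδ1 : δ ≤ 1)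
    (hR : 1 ≤ R) (hθ : 0 < θ) (hθ1 : θ ≤ 1)
    (hball : ∀ σ x, (∀ k, |x k - e k| ≤ δ) → x ∈ K σ)
    (v : Fin N → (Fin m → ℝ)) (hv : ∀ i k, |v i k - e k| ≤ R)
    (hin : ∀ σ i, σ i = false → v i ∈ K σ)
    (hout : ∀ σ i, σ i = true → (1 - θ) • v i + θ • e ∉ K σ)
    (G : ℕ) (hG : 6 * (3 * r + 1) * (r ^ 4 + 1) * (m + 1) * R / (δ ^ 2 * θ) + 1 ≤ G) :
    2 ^ N ≤ (2 * G + 1) ^ (r ^ 4 + m * r ^ 2) := by
  classical
  have hR0 : (0 : ℝ) < R := by linarith
  set L2 : ℝ := 3 * r * R * (m + 1) / δ with hL2
  set P : ℝ := 6 * r * R * (m + 1) / δ with hP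
  have hL2nn : 0 ≤ L2 := by rw [hL2]; positivity
  have hPnn : 0 ≤ P := by rw [hP]; positivity
  have hnf := fun σ : Fin N → Bool =>
    normal_form (hK σ) e hδ hδ1 hR (hball σ)
      ((Finset.univ.filter fun i => σ i = false).image v)
      (by
        intro x hx
        simp only [Finset.mem_image, Finset.mem_filter, Finset.mem_univ, true_and] at hx
        obtain ⟨i, hi, rfl⟩ := hx
        exact ⟨hin σ i hi, hv i⟩)
      ((Finset.univ.filter fun i => σ i = true).image fun i => (1 - θ) • v i + θ • e)
      (by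
        intro z hz
        simp only [Finset.mem_image, Finset.mem_filter, Finset.mem_univ, true_and] at hz
        obtain ⟨i, hi, rfl⟩ := hz
        exact hout σ i hi)
      P hPnn
  choose W l hW hl hT hZ using hnf
  set η : ℝ := θ * δ / (6 * (m + 1) * R * (r ^ 4 + 1)) with hη
  have hη0 : 0 < η := by rw [hη]; positivity
  let val : (Fin N → Bool) →
      ((Fin r × Fin r) × (Fin r × Fin r) ⊕ Fin m × (Fin r × Fin r)) → ℝ := fun σ =>
    Sum.elim (fun p => ((W σ).starProjection (EuclideanSpace.single p.2 1)).ofLp p.1)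
      (fun p => (l σ p.1).ofLp p.2)
  have hval : ∀ σ p, |val σ p| ≤ (3 * r + 1) / δ := by
    intro σ p
    rcases p with ⟨i, j⟩ | ⟨k, i⟩
    · refine ((abs_apply_le _ _).trans (Submodule.norm_starProjection_apply_le _ _)).trans ?_
      simp only [PiLp.norm_single, norm_one]
      rw [le_div_iff₀ hδ]
      have : (0 : ℝ) ≤ r := Nat.cast_nonneg r
      linarith
    · refine ((abs_apply_le _ _).trans (hl σ k).2).trans ?_
      gcongr
      linarith
  let code : (Fin N → Bool) →
      ((Fin r × Fin r) × (Fin r × Fin r) ⊕ Fin m × (Fin r × Fin r)) → ℤ :=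
    fun σ p => ⌊val σ p / η⌋
  have hmaps : ∀ σ ∈ (Finset.univ : Finset (Fin N → Bool)),
      code σ ∈ Fintype.piFinset fun _ => Finset.Icc (-(G : ℤ)) G := by
    intro σ _
    rw [Fintype.mem_piFinset]
    intro p
    have hb : |val σ p / η| + 1 ≤ G := by
      rw [abs_div, abs_of_pos hη0]
      refine le_trans ?_ hG
      have h1 : |val σ p| / η ≤ (3 * r + 1) / δ / η :=
        div_le_div_of_nonneg_right (hval σ p) hη0.le
      have h2 : (3 * r + 1) / δ / η =
          6 * (3 * r + 1) * (r ^ 4 + 1) * (m + 1) * R / (δ ^ 2 * θ) := by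
        rw [hη]; field_simp
      linarith
    rw [Finset.mem_Icc]
    have h1 := abs_le.mp (le_sub_iff_add_le.mpr hb)
    refine ⟨Int.le_floor.mpr ?_, ?_⟩
    · push_cast; linarith
    · have h2 := Int.floor_le (val σ p / η)
      have h3 : (code σ p : ℝ) ≤ ((G : ℤ) : ℝ) := by
        change ((⌊val σ p / η⌋ : ℤ) : ℝ) ≤ _
        push_cast; linarith
      exact_mod_cast h3
  have hinj : ∀ σ τ : Fin N → Bool, ∀ i, σ i = false → τ i = true → code σ ≠ code τ := by
    intro σ τ i hσi hτi heq
    have hclose : ∀ p, |val τ p - val σ p| ≤ η := by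
      intro p
      have h : |val τ p / η - val σ p / η| < 1 :=
        Int.abs_sub_lt_one_of_floor_eq_floor (congrFun heq p).symm
      rw [← sub_div, abs_div, abs_of_pos hη0, div_lt_one hη0] at h
      exact h.le
    obtain ⟨w, hw, hwn, hpsd⟩ := hT σ (v i) (Finset.mem_image_of_mem v (by simp [hσi]))
    set c : Fin m → ℝ := v i - e with hc
    set w' : MatE r := (W τ).starProjection w with hw'
    have hw'W : w' ∈ W τ := Submodule.starProjection_apply_mem _ _
    have hz : (1 - θ) • v i + θ • e - e = (1 - θ) • c := by rw [hc]; module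
    have hlin : lin (l τ) ((1 - θ) • c) = (1 - θ) • lin (l τ) c := by
      simp [lin, Finset.smul_sum, smul_smul]
    have hcR : ∀ k, |c k| ≤ R := fun k => by simpa [hc] using hv i k
    refine hZ τ _ (Finset.mem_image_of_mem (fun i => (1 - θ) • v i + θ • e)
      (by simp [hτi] : i ∈ Finset.univ.filter fun i => τ i = true))
      ((1 - θ) • w') ((W τ).smul_mem _ hw'W) ?_ ?_
    · rw [hz, hlin, ← smul_add, norm_smul, Real.norm_eq_abs, abs_of_nonneg (by linarith)]
      have h1 : ‖lin (l τ) c + w'‖ ≤ P := by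
        have a1 := norm_lin_le (l τ) c hR0.le hcR (fun k => (hl τ k).2)
        have a2 : ‖w'‖ ≤ L2 := (Submodule.norm_starProjection_apply_le _ _).trans hwn
        have a3 : m * (R * (3 * r / δ)) + L2 ≤ P := by
          rw [hP, hL2, le_div_iff₀ hδ]; field_simp
          nlinarith [mul_nonneg (mul_nonneg (Nat.cast_nonneg (α := ℝ) r) hR0.le) hδ.le]
        linarith [norm_add_le (lin (l τ) c) w']
      calc (1 - θ) * ‖lin (l τ) c + w'‖ ≤ 1 * ‖lin (l τ) c + w'‖ :=
            mul_le_mul_of_nonneg_right (by linarith) (norm_nonneg _)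
        _ ≤ P := by linarith
    · set D : MatE r := (lin (l τ) c - lin (l σ) c) + (w' - w) with hD
      have hDsym : D ∈ symE r := by
        refine (symE r).add_mem ((symE r).sub_mem ?_ ?_)
          ((symE r).sub_mem (hW τ hw'W) (hW σ hw))
        · exact (symE r).sum_mem fun k _ => (symE r).smul_mem _ (hl τ k).1
        · exact (symE r).sum_mem fun k _ => (symE r).smul_mem _ (hl σ k).1
      have hDn : ‖D‖ ≤ θ := by
        have a1 : ‖lin (l τ) c - lin (l σ) c‖ ≤ m * (R * (r * η)) := by
          rw [lin_sub]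
          refine norm_lin_le (fun k => l τ k - l σ k) c hR0.le hcR fun k =>
            norm_le_of_apply _ hη0.le fun p => ?_
          simpa [val] using hclose (Sum.inr (k, p))
        have a2 : ‖w' - w‖ ≤ (r : ℝ) ^ 2 * (L2 * (r * η)) := by
          have hfix : (W σ).starProjection w = w :=
            Submodule.starProjection_eq_self_iff.mpr hw
          have hbasis : w = ∑ j, w.ofLp j • EuclideanSpace.single j (1 : ℝ) := by
            ext p; simp [Pi.single_apply]
          have e1 : w' - w = ∑ j, w.ofLp j • ((W τ).starProjection (EuclideanSpace.single j 1) -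
              (W σ).starProjection (EuclideanSpace.single j 1)) := by
            conv_lhs => rw [hw']; arg 2; rw [← hfix]
            conv_lhs => rw [hbasis]
            simp [map_sum, map_smul, smul_sub, Finset.sum_sub_distrib]
          rw [e1]
          refine (norm_sum_le _ _).trans ?_
          refine (Finset.sum_le_sum (g := fun _ => L2 * (r * η)) fun j _ => ?_).trans_eq
            (by simp only [Finset.sum_const, Finset.card_univ, Fintype.card_prod, Fintype.card_fin,
                  nsmul_eq_mul]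
                push_cast
                ring)
          rw [norm_smul, Real.norm_eq_abs]
          refine mul_le_mul ((abs_apply_le w j).trans hwn) ?_ (norm_nonneg _) hL2nn
          refine norm_le_of_apply _ hη0.le fun p => ?_
          simpa [val] using hclose (Sum.inl (p, j))
        have a3 : m * (R * (r * η)) + (r : ℝ) ^ 2 * (L2 * (r * η)) ≤ θ := by
          have hfac : m * (R * (r * η)) + (r : ℝ) ^ 2 * (L2 * (r * η)) =
              (R * η / δ) * (m * r * δ + 3 * r ^ 4 * (m + 1)) := by
            rw [hL2]; field_simp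
          have hr4 : (r : ℝ) ≤ r ^ 4 + 1 := by
            rcases Nat.eq_zero_or_pos r with h | h
            · subst h; norm_num
            · have : (r : ℝ) ≤ r ^ 4 := by exact_mod_cast Nat.le_self_pow (by norm_num) r
              linarith
          have hb : m * r * δ + 3 * (r : ℝ) ^ 4 * (m + 1) ≤ 6 * (m + 1) * (r ^ 4 + 1) := by
            nlinarith [mul_le_mul_of_nonneg_left hδ1 (by positivity : (0 : ℝ) ≤ m * r),
              mul_le_mul_of_nonneg_left hr4 (Nat.cast_nonneg (α := ℝ) m)]
          calc _ = (R * η / δ) * (m * r * δ + 3 * r ^ 4 * (m + 1)) := hfac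
            _ ≤ (R * η / δ) * (6 * (m + 1) * (r ^ 4 + 1)) :=
                mul_le_mul_of_nonneg_left hb (by positivity)
            _ = θ := by rw [hη]; field_simp
        linarith [norm_add_le (lin (l τ) c - lin (l σ) c) (w' - w)]
      have hθ1' : 0 ≤ 1 - θ := by linarith
      have hD2 : ‖(1 - θ) • D‖ ≤ θ := by
        rw [norm_smul, Real.norm_eq_abs, abs_of_nonneg hθ1']
        nlinarith [norm_nonneg D]
      have key := (hpsd.smul hθ1').add (psd_add ((symE r).smul_mem (1 - θ) hDsym) hD2)
      convert key using 1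
      rw [hz, hlin, hD]
      simp only [map_add, map_sub, map_smul]
      module
  have hcard := Finset.card_le_card_of_injOn code hmaps (by
    intro σ _ τ _ heq
    funext i
    cases hσi : σ i <;> cases hτi : τ i
    · rfl
    · exact absurd heq (hinj σ τ i hσi hτi)
    · exact absurd heq.symm (hinj τ σ i hτi hσi)
    · rfl)
  have hI : (Finset.Icc (-(G : ℤ)) G).card = 2 * G + 1 := by rw [Int.card_Icc]; omega
  have he : (r * r) * (r * r) + m * (r * r) = r ^ 4 + m * r ^ 2 := by ring
  simp only [Finset.card_univ, Fintype.card_fun, Fintype.card_bool, Fintype.card_fin,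
    Fintype.card_piFinset, Finset.prod_const, hI, Fintype.card_sum, Fintype.card_prod, he] at hcard
  exact hcard

end Vale.Agent.P256
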