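import Vale.Agent.P256.Base

/-!
The family of hyperbolic polynomials: a product of concentric quadrics perturbed by a signed sum of
powers of linear forms.
-/

namespace Vale.Agent.P256

open MvPolynomial

/-- The one-variable profile `∏ (a² - (j+1)²)`. -/
def gfun (n : ℕ) (a : ℝ) : ℝ := ∏ j ∈ Finset.range n, (a ^ 2 - ((j : ℝ) + 1) ^ 2)

lemma gfun_continuous (n : ℕ) : Continuous (gfun n) := by
  unfold gfun; fun_prop

lemma gfun_neg (n : ℕ) (a : ℝ) : gfun n (-a) = gfun n a := by simp [gfun]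

lemma gfun_half {n i : ℕ} (hi : i ≤ n) :
    (3 / 4 : ℝ) ^ n ≤ (-1) ^ (n - i) * gfun n ((i : ℝ) + 1 / 2) := by
  unfold gfun
  rw [← Finset.prod_range_mul_prod_Ico _ hi, mul_left_comm]
  have h1 : (3 / 4 : ℝ) ^ i ≤ ∏ j ∈ Finset.range i, (((i : ℝ) + 1 / 2) ^ 2 - ((j : ℝ) + 1) ^ 2) := by
    have h : ∏ _j ∈ Finset.range i, (3 / 4 : ℝ) ≤
        ∏ j ∈ Finset.range i, (((i : ℝ) + 1 / 2) ^ 2 - ((j : ℝ) + 1) ^ 2) := by
      refine Finset.prod_le_prod (fun j _ => by norm_num) fun j hj => ?_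
      have h0 : (j : ℝ) + 1 ≤ i := by exact_mod_cast Finset.mem_range.mp hj
      nlinarith [Nat.cast_nonneg (α := ℝ) j]
    simpa only [Finset.prod_const, Finset.card_range] using h
  have h2 : (3 / 4 : ℝ) ^ (n - i) ≤ (-1) ^ (n - i) *
      ∏ j ∈ Finset.Ico i n, (((i : ℝ) + 1 / 2) ^ 2 - ((j : ℝ) + 1) ^ 2) := by
    have e : (-1 : ℝ) ^ (n - i) * ∏ j ∈ Finset.Ico i n, (((i : ℝ) + 1 / 2) ^ 2 - ((j : ℝ) + 1) ^ 2)
        = ∏ j ∈ Finset.Ico i n, (((j : ℝ) + 1) ^ 2 - ((i : ℝ) + 1 / 2) ^ 2) := by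
      rw [← Nat.card_Ico i n, ← Finset.prod_const, ← Finset.prod_mul_distrib]
      exact Finset.prod_congr rfl fun j _ => by ring
    rw [e]
    have h : ∏ _j ∈ Finset.Ico i n, (3 / 4 : ℝ) ≤
        ∏ j ∈ Finset.Ico i n, (((j : ℝ) + 1) ^ 2 - ((i : ℝ) + 1 / 2) ^ 2) := by
      refine Finset.prod_le_prod (fun j _ => by norm_num) fun j hj => ?_
      have h0 : (i : ℝ) ≤ j := by exact_mod_cast (Finset.mem_Ico.mp hj).1
      nlinarith [Nat.cast_nonneg (α := ℝ) i]
    simpa only [Finset.prod_const, Nat.card_Ico] using h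
  calc (3 / 4 : ℝ) ^ n = (3 / 4) ^ i * (3 / 4) ^ (n - i) := by
        rw [← pow_add, Nat.add_sub_cancel' hi]
    _ ≤ _ := mul_le_mul h1 h2 (by positivity) (le_trans (by positivity) h1)

lemma gfun_ge {n : ℕ} {a : ℝ} (ha : ((n : ℝ) + 1 / 2) ^ 2 ≤ a ^ 2) :
    (3 / 4 : ℝ) ^ n ≤ gfun n a := by
  have h : ∏ _j ∈ Finset.range n, (3 / 4 : ℝ) ≤ gfun n a := by
    refine Finset.prod_le_prod (fun j _ => by norm_num) fun j hj => ?_
    have h0 : (j : ℝ) + 1 ≤ n := by exact_mod_cast Finset.mem_range.mp hj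
    nlinarith [Nat.cast_nonneg (α := ℝ) j]
  simpa only [Finset.prod_const, Finset.card_range] using h

lemma gfun_near {n : ℕ} {η : ℝ} (hn : 1 ≤ n) (h0 : 0 ≤ η) (h1 : η ≤ 1) :
    gfun n ((n : ℝ) + η) ≤ η * (2 * n + 1) * ((n : ℝ) + 1) ^ (2 * n) := by
  obtain ⟨m, rfl⟩ : ∃ m, n = m + 1 := ⟨n - 1, by omega⟩
  unfold gfun
  rw [Finset.prod_range_succ]
  set b : ℝ := ((m + 1 : ℕ) : ℝ) with hb
  have hb1 : 1 ≤ b := by rw [hb]; exact_mod_cast hn
  have hlast : (b + η) ^ 2 - ((m : ℝ) + 1) ^ 2 ≤ η * (2 * b + 1) := by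
    have : b = (m : ℝ) + 1 := by rw [hb]; push_cast; ring
    rw [← this]; nlinarith
  have hlast0 : 0 ≤ (b + η) ^ 2 - ((m : ℝ) + 1) ^ 2 := by
    have : b = (m : ℝ) + 1 := by rw [hb]; push_cast; ring
    rw [← this]; nlinarith
  have hfac : ∀ j ∈ Finset.range m, 0 ≤ (b + η) ^ 2 - ((j : ℝ) + 1) ^ 2 ∧
      (b + η) ^ 2 - ((j : ℝ) + 1) ^ 2 ≤ (b + 1) ^ 2 := by
    intro j hj
    have h2 : (j : ℝ) + 1 ≤ b := by
      have h3 : j + 1 ≤ m + 1 := by have := Finset.mem_range.mp hj; omega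
      rw [hb]; exact_mod_cast h3
    exact ⟨by nlinarith [Nat.cast_nonneg (α := ℝ) j], by nlinarith [Nat.cast_nonneg (α := ℝ) j]⟩
  have hprod : ∏ j ∈ Finset.range m, ((b + η) ^ 2 - ((j : ℝ) + 1) ^ 2) ≤ (b + 1) ^ (2 * m) := by
    refine (Finset.prod_le_prod (fun j hj => (hfac j hj).1) (fun j hj => (hfac j hj).2)).trans_eq ?_
    rw [Finset.prod_const, Finset.card_range, ← pow_mul]
  calc _ ≤ (b + 1) ^ (2 * m) * (η * (2 * b + 1)) :=
        mul_le_mul hprod hlast hlast0 (by positivity)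
    _ ≤ (b + 1) ^ (2 * (m + 1)) * (η * (2 * b + 1)) :=
        mul_le_mul_of_nonneg_right (pow_le_pow_right₀ (by linarith) (by omega)) (by positivity)
    _ = _ := by ring

lemma exists_gfun_eq {n i : ℕ} (hi : i < n) {c : ℝ} (hc : |c| < (3 / 4 : ℝ) ^ n) :
    ∃ a, (i : ℝ) + 1 / 2 < a ∧ a < (i : ℝ) + 3 / 2 ∧ gfun n a = c := by
  have h1 := gfun_half (n := n) hi.le
  have h2 := gfun_half (n := n) (i := i + 1) hi
  have hni : n - i = (n - (i + 1)) + 1 := by omega
  rw [hni, pow_succ] at h1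
  push_cast at h2
  rw [show (i : ℝ) + 1 + 1 / 2 = (i : ℝ) + 3 / 2 by ring] at h2
  have hab : (i : ℝ) + 1 / 2 ≤ (i : ℝ) + 3 / 2 := by linarith
  rw [abs_lt] at hc
  rcases neg_one_pow_eq_or ℝ (n - (i + 1)) with h | h <;> rw [h] at h1 h2
  · obtain ⟨a, ⟨ha, hb⟩, he⟩ := intermediate_value_Ioo hab (gfun_continuous n).continuousOn
      ⟨(by linarith : gfun n ((i : ℝ) + 1 / 2) < c), (by linarith : c < gfun n ((i : ℝ) + 3 / 2))⟩
    exact ⟨a, ha, hb, he⟩
  · obtain ⟨a, ⟨ha, hb⟩, he⟩ := intermediate_value_Ioo' hab (gfun_continuous n).continuousOn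
      ⟨(by linarith : gfun n ((i : ℝ) + 3 / 2) < c), (by linarith : c < gfun n ((i : ℝ) + 1 / 2))⟩
    exact ⟨a, ha, hb, he⟩

variable {n N : ℕ}

/-- The signed sum of powers. -/
def pert (u : Fin N → Fin n → ℝ) (σ : Fin N → Bool) (y : Fin n → ℝ) : ℝ :=
  ∑ i, (if σ i then 1 else -1) * (∑ k, u i k * y k) ^ (2 * n)

/-- The polynomial attached to a sign pattern. -/
noncomputable def famPoly (u : Fin N → Fin n → ℝ) (ε : ℝ) (σ : Fin N → Bool) :
    MvPolynomial (Fin (n + 1)) ℝ :=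
  (∏ j ∈ Finset.range n, (X 0 ^ 2 - C (((j : ℝ) + 1) ^ 2) * ∑ k : Fin n, X k.succ ^ 2)) -
    C ε * ∑ i, C (if σ i then 1 else -1 : ℝ) * (∑ k : Fin n, C (u i k) * X k.succ) ^ (2 * n)

lemma famPoly_eval (u : Fin N → Fin n → ℝ) (ε : ℝ) (σ : Fin N → Bool) (x : Fin (n + 1) → ℝ) :
    eval x (famPoly u ε σ) =
      (∏ j ∈ Finset.range n, (x 0 ^ 2 - ((j : ℝ) + 1) ^ 2 * ∑ k : Fin n, x k.succ ^ 2)) -
        ε * pert u σ (fun k => x k.succ) := by
  simp [famPoly, pert, map_prod, map_sum]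

lemma famPoly_homogeneous (u : Fin N → Fin n → ℝ) (ε : ℝ) (σ : Fin N → Bool) :
    (famPoly u ε σ).IsHomogeneous (2 * n) := by
  refine IsHomogeneous.sub ?_ (IsHomogeneous.C_mul (IsHomogeneous.sum _ _ _ fun i _ =>
    IsHomogeneous.C_mul ?_ _) _)
  · have h := IsHomogeneous.prod (Finset.range n)
      (fun j : ℕ => X 0 ^ 2 - C (((j : ℝ) + 1) ^ 2) * ∑ k : Fin n, X k.succ ^ 2)
      (fun _ => 2) fun j _ => (isHomogeneous_X_pow (R := ℝ) (0 : Fin (n + 1)) 2).sub
        (IsHomogeneous.C_mul (IsHomogeneous.sum _ _ _ fun k _ => isHomogeneous_X_pow _ 2) _)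
    simpa [mul_comm] using h
  · have h : (∑ k : Fin n, C (u i k) * X k.succ : MvPolynomial (Fin (n + 1)) ℝ).IsHomogeneous 1 :=
      IsHomogeneous.sum _ _ _ fun k _ => IsHomogeneous.C_mul (isHomogeneous_X ℝ _) _
    simpa using h.pow (2 * n)

lemma pert_smul (u : Fin N → Fin n → ℝ) (σ : Fin N → Bool) (c : ℝ) (y : Fin n → ℝ) :
    pert u σ (c • y) = c ^ (2 * n) * pert u σ y := by
  simp only [pert, Finset.mul_sum, Pi.smul_apply, smul_eq_mul]
  refine Finset.sum_congr rfl fun i _ => ?_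
  rw [show ∑ k, u i k * (c * y k) = c * ∑ k, u i k * y k by
    rw [Finset.mul_sum]; exact Finset.sum_congr rfl fun k _ => by ring]
  rw [mul_pow, mul_left_comm]

lemma pert_abs_le {u : Fin N → Fin n → ℝ} (hu : ∀ i, ∑ k, u i k ^ 2 = 1) (σ : Fin N → Bool)
    (y : Fin n → ℝ) {s : ℝ} (hs : ∑ k, y k ^ 2 = s ^ 2) : |pert u σ y| ≤ N * s ^ (2 * n) := by
  refine (Finset.abs_sum_le_sum_abs _ _).trans ?_
  refine (Finset.sum_le_sum (g := fun _ => s ^ (2 * n)) fun i _ => ?_).trans_eq (by simp)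
  have h := Finset.sum_mul_sq_le_sq_mul_sq Finset.univ (u i) y
  rw [hu, hs, one_mul] at h
  have h2 := pow_le_pow_left₀ (sq_nonneg _) h n
  rw [← pow_mul, ← pow_mul] at h2
  rw [abs_mul, abs_of_nonneg ((even_two_mul n).pow_nonneg (∑ k, u i k * y k))]
  split_ifs <;> simpa using h2

lemma pert_code {u : Fin N → Fin n → ℝ} (hu : ∀ i, ∑ k, u i k ^ 2 = 1)
    (huu : ∀ i j, i ≠ j → |∑ k, u i k * u j k| ≤ 1 / 2) (hN : 2 * (N : ℝ) ≤ 4 ^ n)
    (σ : Fin N → Bool) (i : Fin N) :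
    (σ i = true → 1 / 2 ≤ pert u σ (u i)) ∧ (σ i = false → pert u σ (u i) ≤ -(1 / 2)) := by
  unfold pert
  rw [← Finset.add_sum_erase _ _ (Finset.mem_univ i)]
  have hii : ∑ k, u i k * u i k = 1 := by simpa [sq] using hu i
  rw [hii, one_pow, mul_one]
  have hrest : |∑ j ∈ Finset.univ.erase i, (if σ j then 1 else -1) * (∑ k, u j k * u i k) ^ (2 * n)|
      ≤ 1 / 2 := by
    refine (Finset.abs_sum_le_sum_abs _ _).trans ?_
    refine (Finset.sum_le_sum (g := fun _ => (1 / 4 : ℝ) ^ n) fun j hj => ?_).trans ?_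
    · have h := huu j i (Finset.ne_of_mem_erase hj)
      rw [abs_mul, pow_mul, abs_pow, abs_sq]
      have h2 : (∑ k, u j k * u i k) ^ 2 ≤ 1 / 4 := by
        have := abs_le.mp h; nlinarith
      have h3 := pow_le_pow_left₀ (sq_nonneg _) h2 n
      split_ifs <;> simpa using h3
    · rw [Finset.sum_const, nsmul_eq_mul]
      have hcard : ((Finset.univ.erase i).card : ℝ) ≤ N := by
        exact_mod_cast (Finset.card_erase_le).trans_eq (by simp)
      calc ((Finset.univ.erase i).card : ℝ) * (1 / 4) ^ n ≤ N * (1 / 4) ^ n :=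
            mul_le_mul_of_nonneg_right hcard (by positivity)
        _ ≤ 1 / 2 := by
            rw [one_div_pow, mul_one_div, div_le_iff₀ (by positivity)]; linarith
  rw [abs_le] at hrest
  constructor <;> intro h <;> simp only [h, if_true, Bool.false_eq_true, if_false] <;> linarith

/-- The distinguished direction. -/
def edir (n : ℕ) : Fin (n + 1) → ℝ := Pi.single 0 1

lemma eval_line (u : Fin N → Fin n → ℝ) (ε : ℝ) (σ : Fin N → Bool) (x : Fin (n + 1) → ℝ) (t : ℝ) :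
    eval (t • edir n - x) (famPoly u ε σ) =
      (∏ j ∈ Finset.range n, ((t - x 0) ^ 2 - ((j : ℝ) + 1) ^ 2 * ∑ k : Fin n, x k.succ ^ 2)) -
        ε * pert u σ (fun k => x k.succ) := by
  rw [famPoly_eval]
  have he : pert u σ (fun k => (t • edir n - x) k.succ) = pert u σ (fun k => x k.succ) := by
    have e1 : (fun k : Fin n => (t • edir n - x) k.succ) = (-1 : ℝ) • fun k => x k.succ := by
      funext k; simp [edir]
    rw [e1, pert_smul, pow_mul, neg_one_sq, one_pow, one_mul]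
  rw [he]
  simp [edir]

lemma prod_scale (n : ℕ) {s : ℝ} (hs : s ≠ 0) (a : ℝ) :
    ∏ j ∈ Finset.range n, (a ^ 2 - ((j : ℝ) + 1) ^ 2 * s ^ 2) = s ^ (2 * n) * gfun n (a / s) := by
  have e : ∀ j : ℕ, a ^ 2 - ((j : ℝ) + 1) ^ 2 * s ^ 2 =
      s ^ 2 * ((a / s) ^ 2 - ((j : ℝ) + 1) ^ 2) := fun j => by field_simp
  simp only [e, Finset.prod_mul_distrib, Finset.prod_const, Finset.card_range, gfun, pow_mul]

lemma famPoly_hyperbolic {u : Fin N → Fin n → ℝ} (hn : 1 ≤ n) (hu : ∀ i, ∑ k, u i k ^ 2 = 1)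
    {ε : ℝ} (hε : 0 ≤ ε) (hεN : ε * N < (3 / 4 : ℝ) ^ n) (σ : Fin N → Bool) :
    Hyperbolic (famPoly u ε σ) (edir n) := by
  constructor
  · rw [famPoly_eval]
    have : pert u σ (fun k => edir n k.succ) = 0 := by
      simp [pert, edir, zero_pow (by omega : 2 * n ≠ 0)]
    rw [this]; simp [edir]
  intro x z hz
  set S : ℝ := ∑ k : Fin n, x k.succ ^ 2 with hS
  set s : ℝ := Real.sqrt S with hs
  have hS0 : 0 ≤ S := Finset.sum_nonneg fun k _ => sq_nonneg _
  have hs2 : s ^ 2 = S := Real.sq_sqrt hS0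
  set d : ℝ := ε * pert u σ (fun k => x k.succ) with hd
  have hdle : |d| ≤ ε * N * s ^ (2 * n) := by
    rw [hd, abs_mul, abs_of_nonneg hε, mul_assoc]
    exact mul_le_mul_of_nonneg_left (pert_abs_le hu σ _ hs2.symm) hε
  let Pl : Polynomial ℝ := (∏ j ∈ Finset.range n,
    ((Polynomial.X - Polynomial.C (x 0)) ^ 2 - Polynomial.C (((j : ℝ) + 1) ^ 2 * S))) -
      Polynomial.C d
  have hzP : Polynomial.aeval z Pl = 0 := by
    rw [← hz]
    have e1 : pert u σ (fun k => -x k.succ) = pert u σ (fun k => x k.succ) := by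
      have := pert_smul u σ (-1) (fun k => x k.succ)
      rw [pow_mul, neg_one_sq, one_pow, one_mul] at this
      convert this using 2
      funext k
      simp
    simp only [Pl, hd, ← e1, famPoly, pert, hS]
    simp [edir, map_prod, map_sum, Finset.mul_sum, neg_mul, mul_neg, apply_ite]
  rcases eq_or_lt_of_le hS0 with h0 | h0
  · have hs0 : s = 0 := by rw [hs, ← h0, Real.sqrt_zero]
    have hd0 : d = 0 := by
      rw [hs0, zero_pow (by omega), mul_zero] at hdle
      exact abs_nonpos_iff.mp hdle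
    simp only [Pl, ← h0, hd0, map_sub, map_prod, map_pow, Polynomial.aeval_X, Polynomial.aeval_C,
      mul_zero, map_zero, sub_zero, Finset.prod_const, Finset.card_range] at hzP
    have := pow_eq_zero_iff (by omega : n ≠ 0) |>.mp hzP
    have := pow_eq_zero_iff (by norm_num : (2 : ℕ) ≠ 0) |>.mp this
    rw [sub_eq_zero.mp this]
    simp
  · have hs0 : 0 < s := Real.sqrt_pos.mpr h0
    have hsn : 0 < s ^ (2 * n) := pow_pos hs0 _
    have hc : |d / s ^ (2 * n)| < (3 / 4 : ℝ) ^ n := by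
      rw [abs_div, abs_of_pos hsn, div_lt_iff₀ hsn]
      exact hdle.trans_lt (mul_lt_mul_of_pos_right hεN hsn)
    choose a ha1 ha2 hag using fun i : Fin n => exists_gfun_eq i.isLt hc
    have hq : ∀ j, ((Polynomial.X - Polynomial.C (x 0)) ^ 2 - Polynomial.C j : Polynomial ℝ).Monic ∧
        ((Polynomial.X - Polynomial.C (x 0)) ^ 2 - Polynomial.C j : Polynomial ℝ).natDegree = 2 := by
      intro j
      have h2 : ((Polynomial.X - Polynomial.C (x 0)) ^ 2 : Polynomial ℝ).natDegree = 2 := by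
        rw [Polynomial.natDegree_pow, Polynomial.natDegree_X_sub_C]
      refine ⟨((Polynomial.monic_X_sub_C (x 0)).pow 2).sub_of_left ?_, by
        rw [Polynomial.natDegree_sub_C, h2]⟩
      exact Polynomial.degree_C_le.trans_lt (by
        rw [Polynomial.degree_eq_natDegree ((Polynomial.monic_X_sub_C (x 0)).pow 2).ne_zero, h2]
        norm_num)
    have hprodmonic := Polynomial.monic_prod_of_monic (Finset.range n)
      (fun j : ℕ => (Polynomial.X - Polynomial.C (x 0)) ^ 2 -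
        Polynomial.C (((j : ℝ) + 1) ^ 2 * S)) (fun j _ => (hq _).1)
    have hdeg0 : (∏ j ∈ Finset.range n, ((Polynomial.X - Polynomial.C (x 0)) ^ 2 -
        Polynomial.C (((j : ℝ) + 1) ^ 2 * S))).natDegree = 2 * n := by
      rw [Polynomial.natDegree_prod_of_monic _ _ (fun j _ => (hq _).1)]
      simp only [(hq _).2, Finset.sum_const, Finset.card_range, smul_eq_mul]
      ring
    have hmonic : Pl.Monic := hprodmonic.sub_of_left (Polynomial.degree_C_le.trans_lt (by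
      rw [Polynomial.degree_eq_natDegree hprodmonic.ne_zero, hdeg0]
      exact_mod_cast (by omega : 0 < 2 * n)))
    have hdeg : Pl.natDegree = 2 * n := by simp only [Pl, Polynomial.natDegree_sub_C, hdeg0]
    have hroot : ∀ b : ℝ, gfun n b = d / s ^ (2 * n) → x 0 + s * b ∈ Pl.roots := by
      intro b hb
      rw [Polynomial.mem_roots hmonic.ne_zero]
      simp only [Pl, Polynomial.IsRoot.def, Polynomial.eval_sub, Polynomial.eval_prod,
        Polynomial.eval_pow, Polynomial.eval_X, Polynomial.eval_C, add_sub_cancel_left, ← hs2]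
      rw [prod_scale n hs0.ne', mul_div_cancel_left₀ _ hs0.ne', hb, mul_div_cancel₀ _ hsn.ne',
        sub_self]
    let F : Fin n ⊕ Fin n → ℝ := Sum.elim (fun i => x 0 + s * a i) (fun i => x 0 + s * -a i)
    have hinj : Function.Injective F := by
      have hsep : ∀ i j : Fin n, a i = a j → i = j := by
        intro i j hij
        apply Fin.ext
        have := ha1 i; have := ha2 i; have := ha1 j; have := ha2 j
        rcases lt_trichotomy (i : ℕ) j with h | h | h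
        · have : (i : ℝ) + 1 ≤ j := by exact_mod_cast h
          linarith
        · exact h
        · have : (j : ℝ) + 1 ≤ i := by exact_mod_cast h
          linarith
      have hp : ∀ i, 0 < a i := fun i =>
        lt_trans (by positivity : (0 : ℝ) < (i : ℕ) + 1 / 2) (ha1 i)
      rintro (i | i) (j | j) h <;> simp only [F, Sum.elim_inl, Sum.elim_inr] at h <;>
        have h' := mul_left_cancel₀ hs0.ne' (add_left_cancel h)
      · rw [hsep i j h']
      · linarith [hp i, hp j]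
      · linarith [hp i, hp j]
      · rw [hsep i j (neg_injective h')]
    have hsub : Finset.univ.image F ⊆ Pl.roots.toFinset := by
      intro b hb
      simp only [Finset.mem_image, Finset.mem_univ, true_and] at hb
      obtain ⟨i | i, rfl⟩ := hb
      · exact Multiset.mem_toFinset.mpr (hroot _ (hag i))
      · exact Multiset.mem_toFinset.mpr (hroot _ (by rw [gfun_neg]; exact hag i))
    have hcard : Pl.roots.card = Pl.natDegree := by
      refine le_antisymm (Polynomial.card_roots' Pl) ?_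
      have h1 := (Finset.card_le_card hsub).trans (Multiset.toFinset_card_le _)
      rw [Finset.card_image_of_injective _ hinj] at h1
      simp only [Finset.card_univ, Fintype.card_sum, Fintype.card_fin] at h1
      omega
    rw [← Polynomial.prod_multiset_X_sub_C_of_monic_of_roots_card_eq hmonic hcard,
      map_multiset_prod, Multiset.prod_eq_zero_iff, Multiset.map_map] at hzP
    obtain ⟨b, -, hb⟩ := Multiset.mem_map.mp hzP
    simp only [Function.comp_apply, map_sub, Polynomial.aeval_X, Polynomial.aeval_C] at hb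
    rw [sub_eq_zero.mp hb]
    simp

lemma ball_mem {u : Fin N → Fin n → ℝ} (hn : 1 ≤ n) (hu : ∀ i, ∑ k, u i k ^ 2 = 1) {ε : ℝ}
    (hε : 0 ≤ ε) (hεN : ε * N < (3 / 4 : ℝ) ^ n) (σ : Fin N → Bool) (x : Fin (n + 1) → ℝ)
    (hx : ∀ k, |x k - edir n k| ≤ 1 / ((n : ℝ) + 2) ^ 2) :
    x ∈ hypCone (famPoly u ε σ) (edir n) := by
  intro t ht
  by_contra hneg
  push Not at hneg
  rw [eval_line] at ht
  set S : ℝ := ∑ k : Fin n, x k.succ ^ 2 with hS
  set δ : ℝ := 1 / ((n : ℝ) + 2) ^ 2 with hδ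
  have hn1 : (1 : ℝ) ≤ n := by exact_mod_cast hn
  have hδ0 : 0 < δ := by rw [hδ]; positivity
  have hδe : δ * ((n : ℝ) + 2) ^ 2 = 1 := by rw [hδ]; field_simp
  have hS0 : 0 ≤ S := Finset.sum_nonneg fun k _ => sq_nonneg _
  have hSle : S ≤ n * δ ^ 2 := by
    refine (Finset.sum_le_sum (g := fun _ => δ ^ 2) fun k _ => ?_).trans_eq (by simp)
    have := abs_le.mp (hx k.succ)
    simp [edir] at this
    nlinarith
  have hx0 : 1 - δ ≤ x 0 := by
    have := abs_le.mp (hx 0); simp [edir] at this; linarith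
  have hδ9 : 9 * δ ≤ 1 := by nlinarith
  have hbig : ((n : ℝ) + 1 / 2) ^ 2 * S ≤ (t - x 0) ^ 2 := by
    have h1 : ((n : ℝ) + 1 / 2) * (n * δ) ≤ 1 - δ := by nlinarith
    have h2 : (1 - δ) ^ 2 ≤ (t - x 0) ^ 2 := by nlinarith
    have h3 : ((n : ℝ) + 1 / 2) ^ 2 * S ≤ (((n : ℝ) + 1 / 2) * (n * δ)) ^ 2 := by
      rw [mul_pow]
      exact mul_le_mul_of_nonneg_left (hSle.trans (by nlinarith [sq_nonneg δ])) (sq_nonneg _)
    have h4 : (((n : ℝ) + 1 / 2) * (n * δ)) ^ 2 ≤ (1 - δ) ^ 2 :=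
      pow_le_pow_left₀ (by positivity) h1 2
    linarith
  rcases eq_or_lt_of_le hS0 with h0 | h0
  · have hp := pert_abs_le hu σ (fun k => x k.succ) (s := 0) (by rw [← hS, ← h0]; ring)
    rw [zero_pow (by omega : 2 * n ≠ 0), mul_zero] at hp
    rw [← h0, abs_nonpos_iff.mp hp] at ht
    simp only [mul_zero, sub_zero, Finset.prod_const, Finset.card_range] at ht
    have h1 := (pow_eq_zero_iff (by omega : n ≠ 0)).mp ht
    have h2 := (pow_eq_zero_iff (by norm_num : (2 : ℕ) ≠ 0)).mp h1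
    linarith
  · set s : ℝ := Real.sqrt S with hs
    have hs0 : 0 < s := Real.sqrt_pos.mpr h0
    have hs2 : s ^ 2 = S := Real.sq_sqrt hS0
    have hp := pert_abs_le hu σ (fun k => x k.succ) hs2.symm
    rw [← hs2] at ht hbig
    rw [prod_scale n hs0.ne'] at ht
    have hg : (3 / 4 : ℝ) ^ n ≤ gfun n ((t - x 0) / s) := by
      refine gfun_ge ?_
      rw [div_pow, le_div_iff₀ (by positivity)]
      exact hbig
    have hsn : 0 < s ^ (2 * n) := pow_pos hs0 _
    have h5 : ε * pert u σ (fun k => x k.succ) ≤ ε * (N * s ^ (2 * n)) :=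
      mul_le_mul_of_nonneg_left ((le_abs_self _).trans hp) hε
    nlinarith [mul_le_mul_of_nonneg_left hg hsn.le, mul_lt_mul_of_pos_right hεN hsn]

/-- The test point of code word `i`. -/
def testPoint (u : Fin N → Fin n → ℝ) (i : Fin N) : Fin (n + 1) → ℝ := Fin.cons (n : ℝ) (u i)

lemma testPoint_mem {u : Fin N → Fin n → ℝ} (hu : ∀ i, ∑ k, u i k ^ 2 = 1) {ε : ℝ} (hε : 0 < ε)
    (σ : Fin N → Bool) (i : Fin N) (h : pert u σ (u i) < 0) :
    testPoint u i ∈ hypCone (famPoly u ε σ) (edir n) := by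
  intro t ht
  by_contra hneg
  push Not at hneg
  rw [eval_line] at ht
  simp only [testPoint, Fin.cons_zero, Fin.cons_succ, hu, mul_one] at ht
  have hg : 0 ≤ ∏ j ∈ Finset.range n, ((t - (n : ℝ)) ^ 2 - ((j : ℝ) + 1) ^ 2) := by
    refine Finset.prod_nonneg fun j hj => ?_
    have h0 : (j : ℝ) + 1 ≤ n := by exact_mod_cast Finset.mem_range.mp hj
    nlinarith [Nat.cast_nonneg (α := ℝ) j]
  nlinarith [mul_neg_of_pos_of_neg hε h]

lemma testPoint_notMem {u : Fin N → Fin n → ℝ} (hn : 1 ≤ n) (hu : ∀ i, ∑ k, u i k ^ 2 = 1)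
    {ε θ : ℝ} (hε : 0 < ε) (hεN : ε * N < (3 / 4 : ℝ) ^ n) (hθ : 0 < θ) (hθ1 : θ < 1 / 4)
    (σ : Fin N → Bool) (i : Fin N)
    (h : 2 * θ * (2 * n + 1) * ((n : ℝ) + 1) ^ (2 * n) < ε * pert u σ (u i)) :
    (1 - θ) • testPoint u i + θ • edir n ∉ hypCone (famPoly u ε σ) (edir n) := by
  set c : ℝ := 1 - θ with hc
  set η : ℝ := θ / c with hη
  have hc0 : 0 < c := by rw [hc]; linarith
  have hη0 : 0 < η := div_pos hθ hc0
  have hη2 : η ≤ 2 * θ := by
    rw [hη, div_le_iff₀ hc0, hc]; nlinarith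
  have hlow : gfun n ((n : ℝ) + η) < ε * pert u σ (u i) := by
    refine (gfun_near hn hη0.le (by linarith)).trans_lt (lt_of_le_of_lt ?_ h)
    gcongr
  have hhigh : ε * pert u σ (u i) < gfun n ((n : ℝ) + 1 / 2) := by
    have h1 := gfun_ge (n := n) (a := (n : ℝ) + 1 / 2) le_rfl
    have h2 := (le_abs_self _).trans (pert_abs_le hu σ (u i) (s := 1) (by rw [hu, one_pow]))
    rw [one_pow, mul_one] at h2
    nlinarith [mul_le_mul_of_nonneg_left h2 hε.le]
  obtain ⟨a, ⟨ha, -⟩, hag⟩ := intermediate_value_Ioo (by linarith : (n : ℝ) + η ≤ (n : ℝ) + 1 / 2)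
    (gfun_continuous n).continuousOn ⟨hlow, hhigh⟩
  intro hmem
  set z0 : ℝ := c * n + θ with hz0
  have ht : eval ((z0 - c * a) • edir n - ((1 - θ) • testPoint u i + θ • edir n))
      (famPoly u ε σ) = 0 := by
    rw [eval_line]
    have e0 : (c • testPoint u i + θ • edir n) 0 = z0 := by simp [testPoint, edir, hz0]
    have e1 : (fun k : Fin n => (c • testPoint u i + θ • edir n) k.succ) = c • u i := by
      funext k; simp [testPoint, edir]
    have e2 : ∑ k : Fin n, (c • testPoint u i + θ • edir n) k.succ ^ 2 = c ^ 2 := by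
      have := congrArg (fun f : Fin n → ℝ => ∑ k, f k ^ 2) e1
      simp only [Pi.smul_apply, smul_eq_mul, mul_pow, ← Finset.mul_sum, hu, mul_one] at this
      exact this
    rw [e0, e1, e2, pert_smul, prod_scale n hc0.ne']
    rw [show (z0 - c * a - z0) / c = -a by field_simp; ring, gfun_neg, hag]
    ring
  have := hmem _ ht
  have hcη : c * η = θ := mul_div_cancel₀ θ hc0.ne'
  nlinarith [mul_lt_mul_of_pos_left ha hc0]

end Vale.Agent.P256
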