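import Vale.Agent.P256.Base

/-!
Elementary facts about positive semidefinite matrices, stored as points of a Euclidean space.
-/

namespace Vale.Agent.P256

open Matrix

/-- Euclidean space of `r × r` matrices. -/
abbrev MatE (r : ℕ) : Type := EuclideanSpace ℝ (Fin r × Fin r)

/-- A vector read as a matrix. -/
def toMat {r : ℕ} : MatE r ≃ₗ[ℝ] Matrix (Fin r) (Fin r) ℝ where
  toFun w := Matrix.of fun i j => w.ofLp (i, j)
  invFun M := WithLp.toLp 2 fun p => M p.1 p.2
  left_inv w := by ext p; rfl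
  right_inv M := by ext i j; rfl
  map_add' _ _ := by ext i j; rfl
  map_smul' _ _ := by ext i j; rfl

lemma toMat_apply {r : ℕ} (w : MatE r) (i j : Fin r) : toMat w i j = w.ofLp (i, j) := rfl

lemma norm_sq_eq {r : ℕ} (w : MatE r) : ‖w‖ ^ 2 = ∑ p : Fin r × Fin r, (w.ofLp p) ^ 2 := by
  rw [EuclideanSpace.norm_sq_eq]
  simp [sq_abs]

lemma quad_le {r : ℕ} (w : MatE r) (y : Fin r → ℝ) :
    |y ⬝ᵥ (toMat w *ᵥ y)| ≤ ‖w‖ * (y ⬝ᵥ y) := by
  have e : y ⬝ᵥ (toMat w *ᵥ y) = ∑ p : Fin r × Fin r, w.ofLp p * (y p.1 * y p.2) := by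
    simp only [dotProduct, Matrix.mulVec, toMat_apply, Finset.mul_sum, Fintype.sum_prod_type]
    exact Finset.sum_congr rfl fun i _ => Finset.sum_congr rfl fun j _ => by ring
  have h := Finset.sum_mul_sq_le_sq_mul_sq Finset.univ
    (fun p : Fin r × Fin r => w.ofLp p) (fun p => y p.1 * y p.2)
  have e2 : ∑ p : Fin r × Fin r, (y p.1 * y p.2) ^ 2 = (y ⬝ᵥ y) ^ 2 := by
    simp only [dotProduct, sq, Finset.sum_mul_sum, Fintype.sum_prod_type]
    exact Finset.sum_congr rfl fun i _ => Finset.sum_congr rfl fun j _ => by ring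
  rw [← e, e2, ← norm_sq_eq, ← mul_pow] at h
  have h0 : 0 ≤ ‖w‖ * (y ⬝ᵥ y) :=
    mul_nonneg (norm_nonneg _) (dotProduct_self_nonneg y)
  exact abs_le_of_sq_le_sq h h0
where
  dotProduct_self_nonneg {r : ℕ} (y : Fin r → ℝ) : 0 ≤ y ⬝ᵥ y :=
    Finset.sum_nonneg fun i _ => mul_self_nonneg (y i)

lemma psd_norm_le_trace {r : ℕ} {w : MatE r} (h : (toMat w).PosSemidef) :
    ‖w‖ ≤ (toMat w).trace := by
  refine (sq_le_sq₀ (norm_nonneg _) h.trace_nonneg).mp ?_
  rw [norm_sq_eq, Matrix.trace, sq, Finset.sum_mul_sum, Fintype.sum_prod_type]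
  refine Finset.sum_le_sum fun i _ => Finset.sum_le_sum fun j _ => ?_
  have hd := (h.submatrix ![i, j]).det_nonneg
  have hs : toMat w j i = toMat w i j := by
    have := h.1.apply i j
    simpa using this
  simp only [Matrix.det_fin_two, Matrix.submatrix_apply, Matrix.cons_val_zero,
    Matrix.cons_val_one] at hd
  rw [hs] at hd
  simp only [Matrix.diag_apply, toMat_apply] at hd ⊢
  nlinarith

lemma norm_one_le {r : ℕ} : ‖(toMat.symm (1 : Matrix (Fin r) (Fin r) ℝ) : MatE r)‖ ≤ r := by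
  have h := psd_norm_le_trace (r := r) (w := toMat.symm 1) (by simpa using Matrix.PosSemidef.one)
  simpa using h

/-- A symmetric perturbation of norm at most `θ` is absorbed by `θ • 1`. -/
lemma psd_add {r : ℕ} {w : MatE r} (hs : (toMat w).IsHermitian) {θ : ℝ} (h : ‖w‖ ≤ θ) :
    (toMat w + θ • (1 : Matrix (Fin r) (Fin r) ℝ)).PosSemidef := by
  refine Matrix.PosSemidef.of_dotProduct_mulVec_nonneg (hs.add ?_) fun y => ?_
  · exact (Matrix.isHermitian_one).smul (IsSelfAdjoint.all θ)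
  · have := quad_le w y
    rw [abs_le] at this
    have hy : 0 ≤ y ⬝ᵥ y := Finset.sum_nonneg fun i _ => mul_self_nonneg (y i)
    simp only [star_trivial, Matrix.add_mulVec, Matrix.smul_mulVec, Matrix.one_mulVec,
      dotProduct_add, dotProduct_smul, smul_eq_mul]
    nlinarith [mul_le_mul_of_nonneg_right h hy]

lemma trace_congr_le {r : ℕ} (w : MatE r) (Q : Matrix (Fin r) (Fin r) ℝ) :
    (Qᵀ * toMat w * Q).trace ≤ ‖w‖ * (Qᵀ * Q).trace := by
  simp only [Matrix.trace, Matrix.diag_apply, Finset.mul_sum]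
  refine Finset.sum_le_sum fun k _ => ?_
  have h := (abs_le.mp (quad_le w (fun i => Q i k))).2
  convert h using 1
  · rw [dotProduct_mulVec]
    simp only [Matrix.mul_apply, Matrix.transpose_apply, dotProduct, Matrix.vecMul]
  · simp only [Matrix.mul_apply, Matrix.transpose_apply, dotProduct]

/-- First-order optimality of the determinant at the identity. -/
lemma trace_le_of_det_le {r : ℕ} (N : Matrix (Fin r) (Fin r) ℝ)
    (h : ∀ s : ℝ, 0 ≤ s → s ≤ 1 → ((1 - s) • (1 : Matrix (Fin r) (Fin r) ℝ) + s • N).det ≤ 1) :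
    N.trace ≤ r := by
  by_contra hc
  push Not at hc
  set T := (N - 1).trace with hT
  have hTpos : 0 < T := by
    rw [hT, Matrix.trace_sub, Matrix.trace_one, Fintype.card_fin]; linarith
  let q : Polynomial ℝ := (Matrix.det
    (1 + (Polynomial.X : Polynomial ℝ) • (N - 1).map Polynomial.C)).divX.divX
  have hc : ContinuousAt (fun s : ℝ => T + q.eval s * s) 0 := by fun_prop
  have hev : ∀ᶠ s in nhds (0 : ℝ), 0 < T + q.eval s * s :=
    hc.eventually_const_lt (by simpa using hTpos)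
  obtain ⟨d, hd, hball⟩ := Metric.eventually_nhds_iff.mp hev
  set s := min (d / 2) 1 with hs
  have hs0 : 0 < s := lt_min (half_pos hd) one_pos
  have hpos : 0 < T + q.eval s * s := hball (by
    rw [Real.dist_eq, sub_zero, abs_of_pos hs0]
    exact lt_of_le_of_lt (min_le_left _ _) (half_lt_self hd))
  have h1 := h s hs0.le (min_le_right _ _)
  have e : (1 - s) • (1 : Matrix (Fin r) (Fin r) ℝ) + s • N = 1 + s • (N - 1) := by
    rw [sub_smul, one_smul, smul_sub]; abel
  rw [e, Matrix.det_one_add_smul] at h1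
  change 1 + T * s + q.eval s * s ^ 2 ≤ 1 at h1
  nlinarith [mul_pos hs0 hpos]

end Vale.Agent.P256
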