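import Vale.Agent.P256.Mat

/-!
Normal form of a semidefinite lift with respect to an interior point: the witness of largest
determinant at the interior point becomes the identity, and all relevant witnesses become bounded.
-/

namespace Vale.Agent.P256

open Matrix

/-- The symmetric matrices, as a subspace of `MatE r`. -/
def symE (r : ℕ) : Submodule ℝ (MatE r) where
  carrier := {w | (toMat w).IsHermitian}
  zero_mem' := by simp
  add_mem' {x y} hx hy := by simpa using Matrix.IsHermitian.add hx hy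
  smul_mem' c x hx := by simpa using Matrix.IsHermitian.smul hx (IsSelfAdjoint.all c)

/-- Positive semidefinite matrices of bounded trace. -/
def boundedPSD (r : ℕ) (c : ℝ) : Set (MatE r) :=
  {w | (toMat w).PosSemidef ∧ (toMat w).trace ≤ c}

lemma isCompact_boundedPSD (r : ℕ) (c : ℝ) : IsCompact (boundedPSD r c) := by
  apply Metric.isCompact_of_isClosed_isBounded
  · have e : boundedPSD r c =
        {w | (toMat w).IsHermitian} ∩
          (⋂ y : Fin r → ℝ, {w | 0 ≤ y ⬝ᵥ (toMat w *ᵥ y)}) ∩ {w | (toMat w).trace ≤ c} := by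
      ext w
      simp only [boundedPSD, Set.mem_ofPred_eq, Set.mem_inter_iff, Set.mem_iInter]
      constructor
      · exact fun h => ⟨⟨h.1.1, fun y => by simpa using h.1.dotProduct_mulVec_nonneg y⟩, h.2⟩
      · exact fun h => ⟨Matrix.PosSemidef.of_dotProduct_mulVec_nonneg h.1.1
          (fun y => by simpa using h.1.2 y), h.2⟩
    rw [e]
    have hc : Continuous (fun w : MatE r => toMat w) :=
      (toMat (r := r)).toLinearMap.continuous_of_finiteDimensional
    refine IsClosed.inter (IsClosed.inter ?_ (isClosed_iInter fun y => ?_)) ?_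
    · exact isClosed_eq (Continuous.matrix_conjTranspose hc) hc
    · exact isClosed_le continuous_const
        (continuous_const.dotProduct (hc.matrix_mulVec continuous_const))
    · exact isClosed_le hc.matrix_trace continuous_const
  · exact (Metric.isBounded_iff_subset_closedBall 0).mpr
      ⟨c, fun w hw => by simpa using (psd_norm_le_trace hw.1).trans hw.2⟩

open scoped MatrixOrder in
lemma exists_factor {r : ℕ} {M : Matrix (Fin r) (Fin r) ℝ} (h : M.PosSemidef) :
    ∃ Q : Matrix (Fin r) (Fin r) ℝ, M = Qᵀ * Q := by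
  obtain ⟨Q, hQ⟩ := CStarAlgebra.nonneg_iff_eq_star_mul_self.mp h.nonneg
  exact ⟨Q, by simpa [Matrix.star_eq_conjTranspose] using hQ⟩

/-- The linear part `∑ c k • l k`. -/
def lin {m r : ℕ} (l : Fin m → MatE r) (c : Fin m → ℝ) : MatE r := ∑ k, c k • l k

lemma normal_form {m r : ℕ} {K : Set (Fin m → ℝ)} (hK : HasLift r K) (e : Fin m → ℝ)
    {δ R : ℝ} (hδ : 0 < δ) (hδ1 : δ ≤ 1) (hR : 1 ≤ R)
    (hball : ∀ x, (∀ k, |x k - e k| ≤ δ) → x ∈ K)
    (T : Finset (Fin m → ℝ)) (hT : ∀ x ∈ T, x ∈ K ∧ ∀ k, |x k - e k| ≤ R)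
    (Z : Finset (Fin m → ℝ)) (hZ : ∀ z ∈ Z, z ∉ K) (P : ℝ) (hP : 0 ≤ P) :
    ∃ (W : Submodule ℝ (MatE r)) (l : Fin m → MatE r),
      W ≤ symE r ∧ (∀ k, l k ∈ symE r ∧ ‖l k‖ ≤ 3 * r / δ) ∧
      (∀ x ∈ T, ∃ w ∈ W, ‖w‖ ≤ 3 * r * R * (m + 1) / δ ∧
        (1 + toMat (lin l (x - e) + w)).PosSemidef) ∧
      (∀ z ∈ Z, ∀ w ∈ W, ‖lin l (z - e) + w‖ ≤ P →
        ¬ (1 + toMat (lin l (z - e) + w)).PosSemidef) := by
  classical
  obtain ⟨a, A₀, A, B, hAB⟩ := hK
  let BL : (Fin a → ℝ) →ₗ[ℝ] Matrix (Fin r) (Fin r) ℝ := Fintype.linearCombination ℝ B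
  let AL : (Fin m → ℝ) →ₗ[ℝ] Matrix (Fin r) (Fin r) ℝ := Fintype.linearCombination ℝ A
  let F : (Fin m → ℝ) → (Fin a → ℝ) → Matrix (Fin r) (Fin r) ℝ :=
    fun x u => A₀ + AL x + BL u
  have hF : ∀ x, x ∈ K ↔ ∃ u, (F x u).PosSemidef := fun x => by
    simp only [F, AL, BL, Fintype.linearCombination_apply]; exact hAB x
  let U : (Fin m → ℝ) → (Fin a → ℝ) :=
    fun x => if h : ∃ u, (F x u).PosSemidef then h.choose else 0
  have hU : ∀ x ∈ K, (F x (U x)).PosSemidef := fun x hx => by
    simp only [U]; rw [dif_pos ((hF x).mp hx)]; exact ((hF x).mp hx).choose_spec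
  -- the finite set of points whose witnesses are used
  let y : (Fin m → ℝ) → (Fin m → ℝ) := fun x => e - (δ / R) • (x - e)
  let sp : Fin m → (Fin m → ℝ) := fun k => e + Pi.single k δ
  let sm : Fin m → (Fin m → ℝ) := fun k => e - Pi.single k δ
  let S : Finset (Fin m → ℝ) :=
    T ∪ T.image y ∪ Finset.univ.image sp ∪ Finset.univ.image sm ∪ {e}
  have hdr : 0 ≤ δ / R := div_nonneg hδ.le (by linarith)
  have hy : ∀ x ∈ T, y x ∈ K := fun x hx => hball _ fun k => by
    have h1 := (hT x hx).2 k
    have e1 : y x k - e k = -((δ / R) * (x k - e k)) := by simp [y]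
    rw [e1, abs_neg, abs_mul, abs_of_nonneg hdr]
    calc δ / R * |x k - e k| ≤ δ / R * R := mul_le_mul_of_nonneg_left h1 hdr
      _ = δ := by field_simp
  have hsp : ∀ k, sp k ∈ K := fun k => hball _ fun j => by
    rcases eq_or_ne j k with h | h
    · subst h; simp [sp, abs_of_pos hδ]
    · simp [sp, h, hδ.le]
  have hsm : ∀ k, sm k ∈ K := fun k => hball _ fun j => by
    rcases eq_or_ne j k with h | h
    · subst h; simp [sm, abs_of_pos hδ]
    · simp [sm, h, hδ.le]
  have heK : e ∈ K := hball _ fun j => by simp [hδ.le]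
  have hSK : ∀ x ∈ S, x ∈ K := by
    intro x hx
    simp only [S, Finset.mem_union, Finset.mem_image, Finset.mem_univ, true_and,
      Finset.mem_singleton] at hx
    rcases hx with (((h | ⟨x', h, rfl⟩) | ⟨k, rfl⟩) | ⟨k, rfl⟩) | rfl
    · exact (hT x h).1
    · exact hy x' h
    · exact hsp k
    · exact hsm k
    · exact heK
  set R1 : ℝ := ∑ x ∈ S, |(F x (U x)).trace| with hR1
  set R3 : ℝ := R1 + 1 with hR3
  -- choice of the regularisation parameter
  let idE : MatE r := toMat.symm 1
  let BE : (Fin a → ℝ) →ₗ[ℝ] MatE r := (toMat (r := r)).symm.toLinearMap ∘ₗ BL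
  have hclosed : ∀ z, IsClosed (Set.range fun u => toMat.symm (F z u)) := fun z => by
    have e1 : (Set.range fun u => toMat.symm (F z u)) =
        (fun w => toMat.symm (A₀ + AL z) + w) '' (LinearMap.range BE : Set (MatE r)) := by
      ext w
      simp [F, BE, map_add, add_assoc]
    rw [e1]
    exact (Homeomorph.addLeft _).isClosedMap _ (Submodule.closed_of_finiteDimensional _)
  have hev : ∀ z ∈ Z, ∀ᶠ ε in nhdsWithin (0 : ℝ) (Set.Ioi 0),
      ∀ u, toMat.symm (F z u) + ε • idE ∉ boundedPSD r ((r + P) * R3) := by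
    intro z hz
    have hd : Disjoint (boundedPSD r ((r + P) * R3))
        (Set.range fun u => toMat.symm (F z u)) := by
      rw [Set.disjoint_left]
      rintro w hw ⟨u, rfl⟩
      exact hZ z hz ((hF z).mpr ⟨u, by simpa [boundedPSD] using hw.1⟩)
    obtain ⟨d, hd0, hdis⟩ := hd.exists_thickenings (isCompact_boundedPSD _ _) (hclosed z)
    have ht : Filter.Tendsto (fun ε : ℝ => ε • idE) (nhdsWithin 0 (Set.Ioi 0)) (nhds 0) := by
      have hc : Continuous (fun ε : ℝ => ε • idE) := by fun_prop
      exact (hc.tendsto' 0 0 (zero_smul _ _)).mono_left nhdsWithin_le_nhds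
    filter_upwards [ht.eventually (Metric.ball_mem_nhds 0 hd0)] with ε hε u hmem
    refine Set.disjoint_left.mp hdis (Metric.self_subset_thickening hd0 _ hmem) ?_
    rw [Metric.mem_thickening_iff]
    exact ⟨_, ⟨u, rfl⟩, by simpa using hε⟩
  have hsmall : ∀ᶠ ε in nhdsWithin (0 : ℝ) (Set.Ioi 0), ε * (r : ℝ) ≤ 1 := by
    have hc : Filter.Tendsto (fun ε : ℝ => ε * r) (nhdsWithin 0 (Set.Ioi 0)) (nhds 0) :=
      ((continuous_id.mul continuous_const).tendsto' 0 0 (by simp)).mono_left nhdsWithin_le_nhds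
    exact hc.eventually (Iic_mem_nhds one_pos)
  obtain ⟨ε, ⟨hεZ, hεr⟩, hε0⟩ :=
    ((((Filter.eventually_all_finset (p := fun z (ε : ℝ) =>
      ∀ u, toMat.symm (F z u) + ε • idE ∉ boundedPSD r ((r + P) * R3)) Z).mpr hev).and hsmall).and
        self_mem_nhdsWithin).exists
  have hε0 : (0 : ℝ) < ε := hε0
  let G : (Fin m → ℝ) → (Fin a → ℝ) → Matrix (Fin r) (Fin r) ℝ := fun x u => F x u + ε • 1
  have hG : ∀ x ∈ S, (G x (U x)).PosSemidef ∧ (G x (U x)).trace ≤ R3 := by
    intro x hx
    refine ⟨(hU x (hSK x hx)).add (Matrix.PosSemidef.one.smul hε0.le), ?_⟩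
    have h1 : (F x (U x)).trace ≤ R1 :=
      (le_abs_self _).trans
        (Finset.single_le_sum (f := fun x => |(F x (U x)).trace|) (fun _ _ => abs_nonneg _) hx)
    simp only [G, Matrix.trace_add, Matrix.trace_smul, Matrix.trace_one, Fintype.card_fin,
      smul_eq_mul]
    linarith
  have hGaff : ∀ (t : ℝ) x x' u u', (1 - t) • G x u + t • G x' u' =
      G ((1 - t) • x + t • x') ((1 - t) • u + t • u') := by
    intro t x x' u u'
    simp only [G, F, map_add, map_smul]
    module
  -- the witness of largest determinant at the interior point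
  let GE : Set (MatE r) :=
    boundedPSD r R3 ∩ Set.range fun u => toMat.symm (G e u)
  have hGEc : IsCompact GE := by
    refine (isCompact_boundedPSD r R3).inter_right ?_
    have e1 : (Set.range fun u => toMat.symm (G e u)) =
        (fun w => w + ε • idE) '' (Set.range fun u => toMat.symm (F e u)) := by
      rw [← Set.range_comp]
      refine congrArg Set.range (funext fun u => ?_)
      simp [G, idE, map_add, map_smul]
    rw [e1]
    exact (Homeomorph.addRight _).isClosedMap _ (hclosed e)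
  have hGEmem : ∀ u, (G e u).PosSemidef → (G e u).trace ≤ R3 →
      toMat.symm (G e u) ∈ GE :=
    fun u h1 h2 => ⟨by simpa [boundedPSD] using And.intro h1 h2, u, rfl⟩
  have heS : e ∈ S := by simp [S]
  have hne : GE.Nonempty := ⟨_, hGEmem _ (hG e heS).1 (hG e heS).2⟩
  have hdetc : Continuous fun w : MatE r => (toMat w).det :=
    Continuous.matrix_det (toMat (r := r)).toLinearMap.continuous_of_finiteDimensional
  obtain ⟨v, hv, hmax⟩ := hGEc.exists_isMaxOn hne hdetc.continuousOn
  obtain ⟨hvb, us, hus⟩ := hv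
  have hmax' : ∀ u, (G e u).PosSemidef → (G e u).trace ≤ R3 → (G e u).det ≤ (G e us).det := by
    intro u h1 h2
    have := hmax (hGEmem u h1 h2)
    rw [← hus] at this
    simpa using this
  have hMs : (G e us).PosSemidef ∧ (G e us).trace ≤ R3 := by
    have := hvb; rw [← hus] at this; simpa [boundedPSD] using this
  have hpos : 0 < (G e us).det :=
    ((((Matrix.PosDef.one.smul hε0).posSemidef_add (hU e heK))).det_pos).trans_le
      (hmax' (U e) (hG e heS).1 (hG e heS).2)
  obtain ⟨Q, hQ⟩ := exists_factor hMs.1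
  have hQdet : IsUnit Q.det := by
    rw [isUnit_iff_ne_zero]
    intro h0
    rw [hQ, Matrix.det_mul, Matrix.det_transpose, h0] at hpos
    simp at hpos
  -- congruence by the inverse of `Q`
  let cong : Matrix (Fin r) (Fin r) ℝ →ₗ[ℝ] Matrix (Fin r) (Fin r) ℝ :=
    { toFun := fun M => (Q⁻¹)ᵀ * M * Q⁻¹
      map_add' := fun M N => by simp only [Matrix.mul_add, Matrix.add_mul]
      map_smul' := fun c M => by simp only [Matrix.mul_smul, Matrix.smul_mul, RingHom.id_apply] }
  have hback : ∀ M, Qᵀ * cong M * Q = M := by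
    intro M
    change Qᵀ * ((Q⁻¹)ᵀ * M * Q⁻¹) * Q = M
    rw [← Matrix.mul_assoc, ← Matrix.mul_assoc, ← Matrix.transpose_mul,
      Matrix.nonsing_inv_mul Q hQdet, Matrix.transpose_one, Matrix.one_mul, Matrix.mul_assoc,
      Matrix.nonsing_inv_mul Q hQdet, Matrix.mul_one]
  have hone : cong (G e us) = 1 := by
    change (Q⁻¹)ᵀ * (G e us) * Q⁻¹ = 1
    rw [hQ, ← Matrix.mul_assoc, ← Matrix.transpose_mul, Matrix.mul_nonsing_inv Q hQdet,
      Matrix.transpose_one, Matrix.one_mul, Matrix.mul_nonsing_inv Q hQdet]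
  have hcpsd : ∀ M, M.PosSemidef → (cong M).PosSemidef := by
    intro M hM
    have := hM.conjTranspose_mul_mul_same Q⁻¹
    rwa [Matrix.conjTranspose_eq_transpose_of_trivial] at this
  have hopt : ∀ u, (G e u).PosSemidef → (G e u).trace ≤ R3 → (cong (G e u)).trace ≤ r := by
    intro u h1 h2
    refine trace_le_of_det_le _ fun s hs0 hs1 => ?_
    have e1 := hGaff s e e us u
    rw [← add_smul, sub_add_cancel, one_smul] at e1
    have hp : ((1 - s) • G e us + s • G e u).PosSemidef :=
      (hMs.1.smul (by linarith)).add (h1.smul hs0)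
    have ht : ((1 - s) • G e us + s • G e u).trace ≤ R3 := by
      simp only [Matrix.trace_add, Matrix.trace_smul, smul_eq_mul]
      nlinarith [hMs.2, h2]
    rw [e1] at hp ht
    have hle := hmax' _ hp ht
    have hc : cong (G e ((1 - s) • us + s • u)) =
        (1 - s) • (1 : Matrix (Fin r) (Fin r) ℝ) + s • cong (G e u) := by
      rw [← e1, map_add, map_smul, map_smul, hone]
    rw [← hc]
    rw [← hback (G e ((1 - s) • us + s • u)), ← hback (G e us), hone, Matrix.det_mul,
      Matrix.det_mul, Matrix.det_mul, Matrix.det_mul, Matrix.det_transpose, Matrix.det_one] at hle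
    have hq : 0 < Q.det * Q.det := mul_self_pos.mpr (isUnit_iff_ne_zero.mp hQdet)
    nlinarith
  -- normalised witnesses
  let N : (Fin m → ℝ) → Matrix (Fin r) (Fin r) ℝ := fun x => cong (G x (U x))
  have htr : ∀ x ∈ S, ∀ x' ∈ S, ∀ t : ℝ, 0 ≤ t → t ≤ 1 → (1 - t) • x' + t • x = e →
      t * (N x).trace ≤ r := by
    intro x hx x' hx' t ht0 ht1 heq
    have e1 := hGaff t x' x (U x') (U x)
    rw [heq] at e1
    have hp : ((1 - t) • G x' (U x') + t • G x (U x)).PosSemidef :=
      ((hG x' hx').1.smul (by linarith)).add ((hG x hx).1.smul ht0)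
    have ht : ((1 - t) • G x' (U x') + t • G x (U x)).trace ≤ R3 := by
      simp only [Matrix.trace_add, Matrix.trace_smul, smul_eq_mul]
      nlinarith [(hG x hx).2, (hG x' hx').2]
    rw [e1] at hp ht
    have h3 := hopt _ hp ht
    rw [← e1, map_add, map_smul, map_smul, Matrix.trace_add, Matrix.trace_smul, Matrix.trace_smul,
      smul_eq_mul, smul_eq_mul] at h3
    have h0 := mul_nonneg (sub_nonneg.mpr ht1) (hcpsd _ (hG x' hx').1).trace_nonneg
    change t * (cong (G x (U x))).trace ≤ r
    linarith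
  let CE : Matrix (Fin r) (Fin r) ℝ →ₗ[ℝ] MatE r := (toMat (r := r)).symm.toLinearMap ∘ₗ cong
  let D : (Fin m → ℝ) → MatE r := fun x => toMat.symm (N x - 1)
  let V : Submodule ℝ (MatE r) := LinearMap.range (CE ∘ₗ BL)
  let W : Submodule ℝ (MatE r) := V ⊓ symE r
  have hNr : ∀ x ∈ S, ‖D x‖ ≤ (N x).trace + r := by
    intro x hx
    have h1 := psd_norm_le_trace (w := toMat.symm (N x)) (by simpa using hcpsd _ (hG x hx).1)
    rw [LinearEquiv.apply_symm_apply] at h1
    calc ‖D x‖ = ‖toMat.symm (N x) - toMat.symm 1‖ := by simp [D, map_sub]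
      _ ≤ ‖toMat.symm (N x)‖ + ‖toMat.symm (1 : Matrix (Fin r) (Fin r) ℝ)‖ := norm_sub_le _ _
      _ ≤ (N x).trace + r := add_le_add h1 norm_one_le
  have hDsym : ∀ x ∈ S, D x ∈ symE r := fun x hx => by
    change (toMat (toMat.symm (N x - 1))).IsHermitian
    rw [LinearEquiv.apply_symm_apply]
    exact (hcpsd _ (hG x hx).1).1.sub Matrix.isHermitian_one
  have hGd : ∀ x u, G x u - G e us = AL (x - e) + BL (u - us) := by
    intro x u; simp only [G, F, map_sub]; abel
  have hDV : ∀ x, D x - CE (AL (x - e)) ∈ V := by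
    intro x
    refine ⟨U x - us, ?_⟩
    have e1 : D x = CE (G x (U x) - G e us) := by
      simp only [D, N, CE, LinearMap.comp_apply, map_sub, hone, LinearEquiv.coe_coe]
    rw [e1, hGd, map_add]; simp
  let g : Fin m → MatE r := fun k => δ⁻¹ • D (sp k)
  let l : Fin m → MatE r := fun k => g k - W.starProjection (g k)
  have hspS : ∀ k, sp k ∈ S := fun k => by simp [S]
  have hsmS : ∀ k, sm k ∈ S := fun k => by simp [S]
  have hgV : ∀ k, g k - CE (AL (Pi.single k 1)) ∈ V := by
    intro k
    have h := V.smul_mem δ⁻¹ (hDV (sp k))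
    have e1 : sp k - e = δ • Pi.single k (1 : ℝ) := by
      simp [sp, ← Pi.single_smul]
    rw [e1, map_smul, map_smul, smul_sub, inv_smul_smul₀ hδ.ne'] at h
    exact h
  have hlV : ∀ c, lin l c - CE (AL c) ∈ V := by
    intro c
    have e1 : CE (AL c) = ∑ k, c k • CE (AL (Pi.single k 1)) := by
      simp only [← map_smul, ← map_sum]
      congr 2
      exact pi_eq_sum_univ' c
    rw [e1, lin, ← Finset.sum_sub_distrib]
    refine V.sum_mem fun k _ => ?_
    rw [← smul_sub]
    refine V.smul_mem _ ?_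
    have : l k - CE (AL (Pi.single k 1)) =
        (g k - CE (AL (Pi.single k 1))) - W.starProjection (g k) := by simp only [l]; abel
    rw [this]
    exact V.sub_mem (hgV k) (Submodule.starProjection_apply_mem W (g k)).1
  have hlsym : ∀ k, l k ∈ symE r := fun k =>
    (symE r).sub_mem ((symE r).smul_mem _ (hDsym _ (hspS k)))
      (Submodule.starProjection_apply_mem W (g k)).2
  have hlnorm : ∀ k, ‖l k‖ ≤ 3 * r / δ := by
    intro k
    have h2 := htr (sp k) (hspS k) (sm k) (hsmS k) (1 / 2) (by norm_num) (by norm_num)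
      (by simp only [sp, sm]; module)
    calc ‖l k‖ = ‖Wᗮ.starProjection (g k)‖ := by
          rw [Submodule.starProjection_orthogonal']; rfl
      _ ≤ ‖g k‖ := Submodule.norm_starProjection_apply_le _ _
      _ = δ⁻¹ * ‖D (sp k)‖ := by simp [g, norm_smul, abs_of_pos hδ]
      _ ≤ δ⁻¹ * (3 * r) := by
          refine mul_le_mul_of_nonneg_left ?_ (by positivity)
          linarith [hNr _ (hspS k)]
      _ = 3 * r / δ := by ring
  refine ⟨W, l, inf_le_right, fun k => ⟨hlsym k, hlnorm k⟩, ?_, ?_⟩
  · intro x hx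
    have hxS : x ∈ S := by simp [S, hx]
    have hyS : y x ∈ S := by simp [S, Finset.mem_image_of_mem y hx]
    refine ⟨D x - lin l (x - e), ⟨?_, ?_⟩, ?_, ?_⟩
    · simpa using V.sub_mem (hDV x) (hlV (x - e))
    · exact (symE r).sub_mem (hDsym x hxS)
        ((symE r).sum_mem fun k _ => (symE r).smul_mem _ (hlsym k))
    · have hR0 : (0 : ℝ) < R := by linarith
      have h2 := htr x hxS (y x) hyS (δ / (R + δ)) (by positivity)
        (by rw [div_le_one (by positivity)]; linarith) (by
          funext k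
          simp only [y, Pi.add_apply, Pi.smul_apply, Pi.sub_apply, smul_eq_mul]
          field_simp
          ring)
      have h3 : (N x).trace ≤ r * (R + δ) / δ := by
        rw [div_mul_eq_mul_div, div_le_iff₀ (by positivity)] at h2
        rw [le_div_iff₀ hδ]; linarith
      have h4 : ‖lin l (x - e)‖ ≤ m * (R * (3 * r / δ)) := by
        refine (norm_sum_le _ _).trans ?_
        refine (Finset.sum_le_sum (g := fun _ => R * (3 * r / δ)) fun k _ => ?_).trans_eq (by simp)
        rw [norm_smul, Real.norm_eq_abs]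
        exact mul_le_mul ((hT x hx).2 k) (hlnorm k) (norm_nonneg _) hR0.le
      have h5 : r * (R + δ) / δ + r + m * (R * (3 * r / δ)) ≤ 3 * r * R * (m + 1) / δ := by
        rw [le_div_iff₀ hδ]
        field_simp
        nlinarith [mul_nonneg (Nat.cast_nonneg (α := ℝ) r) (sub_nonneg.mpr (hδ1.trans hR))]
      linarith [norm_sub_le (D x) (lin l (x - e)), hNr x hxS]
    · simpa [D] using hcpsd _ (hG x hxS).1
  · intro z hz w hw hwP hpsd
    obtain ⟨u, hu⟩ := V.add_mem (hlV (z - e)) hw.1
    have e1 : 1 + toMat (lin l (z - e) + w) = cong (G z (us + u)) := by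
      have e2 : lin l (z - e) + w = CE (AL (z - e) + BL u) := by
        rw [map_add]
        simp only [LinearMap.comp_apply] at hu
        rw [hu]; abel
      have e3 : G z (us + u) = G e us + (AL (z - e) + BL u) := by
        have := hGd z (us + u)
        rw [add_sub_cancel_left] at this
        rw [← this]; abel
      rw [e2, e3, map_add cong, hone]
      simp [CE]
    set M' : MatE r := toMat.symm 1 + (lin l (z - e) + w) with hM'
    have hM'' : toMat M' = cong (G z (us + u)) := by rw [← e1, hM']; simp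
    have hnorm : ‖M'‖ ≤ r + P := (norm_add_le _ _).trans (add_le_add norm_one_le hwP)
    have ht := trace_congr_le M' Q
    rw [hM'', hback, ← hQ] at ht
    have hp : (G z (us + u)).PosSemidef := by
      rw [e1] at hpsd
      have := hpsd.conjTranspose_mul_mul_same Q
      rwa [Matrix.conjTranspose_eq_transpose_of_trivial, hback] at this
    refine hεZ z hz (us + u) ⟨?_, ?_⟩
    · simpa [idE, G] using hp
    · calc (toMat (toMat.symm (F z (us + u)) + ε • idE)).trace = (G z (us + u)).trace := by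
            simp [idE, G]
        _ ≤ ‖M'‖ * (G e us).trace := ht
        _ ≤ (r + P) * R3 :=
            mul_le_mul hnorm hMs.2 hMs.1.trace_nonneg (by positivity)

end Vale.Agent.P256
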